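import Vale.Agent.P283R.Lg.W
import Vale.Agent.P283R.Lf.On
import Vale.Agent.P283R.Dc.On69

/-!
# P283R: the theorems in the words of `Lg/W`
-/

open CategoryTheory AlgebraicGeometry

namespace Vale.Agent.P283R.Lg

open Sl Sl.Var
open Lz (Triv Lifts)

theorem Steps.old {J J' : ℕ} {X Y : Var} {g : X.X ⟶ Y.X} (h : Steps J g) (l : J ≤ J') :
    Sl.Stages J' g := by
  induction h generalizing J' with
  | one a b =>
    obtain ⟨k, rfl⟩ : ∃ k, J' = k + 1 := ⟨J' - 1, by omega⟩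
    exact .one a b
  | comp _ _ a b => exact .comp (a l) (b l)
  | small p a b c _ i => exact .small p a b c (i l)
  | cover b c e u v w _ i => exact .cover b c e u v (w.trans l) (i le_rfl)

/-- the old class is contained -/
theorem Steps.of {J : ℕ} {X Y : Var} {g : X.X ⟶ Y.X} (h : Lf.Steps J g) : Steps J g := by
  induction h with
  | one a b => exact .one a b
  | comp _ _ a b => exact .comp a b
  | small p a b c _ i => exact .small p a b c i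
  | etale b a c e f k l _ i => exact .cover b a e (.inl ⟨c, f⟩) k l i

/-- nested towers over a class -/
theorem nest (J : ℕ → ℕ) {C : ∀ (d : ℕ) (X Z : Var), (X.X ⟶ Z.X) → X.Form d → Pt Z.X → Prop}
    (h : OnN fun d X Z f ω _ z => C d X Z f ω z) : OnN fun d Y W g η D w =>
      ∃ (e : ℕ) (T : Var) (a : Y.X ⟶ T.X) (h : T.X ⟶ W.X) (θ : T.Form e),
        dimension T.str = e ∧ 1 ≤ e ∧ θ.Nonzero ∧ a ≫ h = g ∧ Steps (J d) a ∧ Triv a η D ∧
        C e T W h θ w :=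
  (h.stage J).mono fun _ _ _ _ _ _ _ ⟨e, T, a, h, θ, b1, b2, b3, b4, b5, b6⟩ =>
    ⟨e, T, a, h, θ, b1, b2, b3, b4, b5.old le_rfl, b6⟩

theorem lifts (J : ℕ → ℕ) : Lifts fun d _ _ g => Steps (J d) g := fun _ h =>
  (onN_stage J h).mono fun _ _ _ _ _ _ _ ⟨e, a, b, c, t⟩ => ⟨e, a, b, c.old le_rfl, t⟩

/-- nested towers over a class, with a real bound for the degree -/
theorem nestE {a : ℝ} (ha : 0 < a) (b : ℕ → ℝ)
    {C : ∀ (d : ℕ) (X Z : Var), (X.X ⟶ Z.X) → X.Form d → Pt Z.X → Prop}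
    (h : OnN fun d X Z f ω _ z => C d X Z f ω z) : OnN fun d Y W g η D w =>
      ∃ (e J : ℕ) (T : Var) (p : Y.X ⟶ T.X) (h : T.X ⟶ W.X) (θ : T.Form e),
        dimension T.str = e ∧ 1 ≤ e ∧ θ.Nonzero ∧ p ≫ h = g ∧ J * a ≤ b d ∧ Steps J p ∧
        Triv p η D ∧ C e T W h θ w :=
  (h.stage fun d => ⌈b d / a⌉₊).mono
    fun _ _ _ _ _ _ _ ⟨e, _, T, p, h, θ, b1, b2, b3, b4, l, b5, b6⟩ =>
      ⟨e, T, p, h, θ, b1, b2, b3, b4, b5.old (Nat.cast_le.1
        (((le_div_iff₀ ha).2 l).trans (Nat.le_ceil _))), b6⟩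

/-- the same over a germ -/
theorem liftE {a : ℝ} (ha : 0 < a) (b : ℕ → ℝ) :
    Lifts fun d _ _ g => ∃ J : ℕ, J * a ≤ b d ∧ Steps J g := fun _ h =>
  (onN_stage (fun d => ⌈b d / a⌉₊) h).mono fun _ _ _ _ _ _ _ ⟨e, b1, b2, ⟨_, l, c⟩, t⟩ =>
    ⟨e, b1, b2, c.old (Nat.cast_le.1 (((le_div_iff₀ ha).2 l).trans (Nat.le_ceil _))), t⟩

end Vale.Agent.P283R.Lg
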